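import Vale.Agent.N312.GTry
import Vale.Agent.N312.GDefs

/-!
The numerical machines of a machine with a `d`-dimensional tape: the cells are numbered block by block.
-/

namespace Vale.Agent.N312.G

open Finset Vale.Agent.P312 Vale.Agent.Lib.Space

/-- The coordinate `j` of the cell number `p`. -/
def co (L b w p j : ℕ) : ℕ := dig L (p / w) j * b + dig b (p % w) j

/-- The number of the cell with the coordinates `z`. -/
def enc (d L b w : ℕ) (z : ℕ → ℕ) : ℕ :=
  ofd L d (fun j => z j / b) * w + ofd b d fun j => z j % b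

/-- The new value of the coordinate `j` for the move with the code `m`. -/
def mvz (m j x : ℕ) : ℕ := if m = 2 * j + 1 then x + 1 else if m = 2 * j + 2 then x - 1 else x

section

variable {d L b w : ℕ} {z z' : ℕ → ℕ}

theorem enc_congr (h : ∀ j < d, z j = z' j) : enc d L b w z = enc d L b w z' := by
  unfold enc
  rw [ofd_congr d _ (fun j => z' j / b) fun j hj => by rw [h j hj],
    ofd_congr d (fun j => z j % b) (fun j => z' j % b) fun j hj => by rw [h j hj]]

theorem enc_div (hb : 0 < b) (hw : b ^ d < w) : enc d L b w z / w = ofd L d fun j => z j / b :=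
  psh_div ((ofd_lt _ _ fun _ _ => Nat.mod_lt _ hb).trans hw) _

theorem enc_mod (hb : 0 < b) (hw : b ^ d < w) : enc d L b w z % w = ofd b d fun j => z j % b :=
  psh_mod ((ofd_lt _ _ fun _ _ => Nat.mod_lt _ hb).trans hw) _

theorem co_enc (hb : 0 < b) (hw : b ^ d < w) (hz : ∀ j < d, z j < L) {j : ℕ} (hj : j < d) :
    co L b w (enc d L b w z) j = z j := by
  rw [co, enc_div hb hw, enc_mod hb hw,
    dig_ofd _ _ (fun i hi => (Nat.div_le_self _ _).trans_lt (hz i hi)) j hj,
    dig_ofd _ _ (fun _ _ => Nat.mod_lt _ hb) j hj]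
  exact Nat.div_add_mod' _ _

theorem enc_lt (hb : 0 < b) (hw : b ^ d < w) (hz : ∀ j < d, z j < L) :
    enc d L b w z < L ^ d * w := by
  have h1 : ofd L d (fun j => z j / b) < L ^ d :=
    ofd_lt _ _ fun i hi => (Nat.div_le_self _ _).trans_lt (hz i hi)
  have h2 : (ofd b d fun j => z j % b) < w := (ofd_lt _ _ fun _ _ => Nat.mod_lt _ hb).trans hw
  have h3 : (ofd L d (fun j => z j / b) + 1) * w ≤ L ^ d * w := Nat.mul_le_mul_right _ h1
  rw [add_mul] at h3
  rw [enc]
  omega

end

/-- Some offset has few crossings. -/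
theorem exists_offset' {b : ℕ} (hb : 0 < b) (y : ℕ → ℕ → ℕ) (H : ℕ)
    (hy : ∀ t < H, ∃ i, (∀ j, j ≠ i → y (t + 1) j = y t j) ∧
      y (t + 1) i ≤ y t i + 1 ∧ y t i ≤ y (t + 1) i + 1) (z : ℕ → ℕ → ℕ) (w : ℕ)
    (hz : ∀ o < b, ∀ t < H, (∀ j, (y t j + o) / b = (y (t + 1) j + o) / b) →
      z o t / w = z o (t + 1) / w) :
    ∃ o < b, cnt w (z o) H ≤ H / b := by
  have key : ∀ x : ℕ, ((range b).filter fun o => (x + o) / b ≠ (x + 1 + o) / b).card ≤ 1 := by
    intro x
    rw [card_le_one]
    intro a ha c hc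
    simp only [mem_filter, mem_range] at ha hc
    have h1 : ∀ o, (x + o) / b ≠ (x + 1 + o) / b → b ∣ x + o + 1 := by
      intro o ho
      by_contra hc
      apply ho
      rw [show x + 1 + o = x + o + 1 by ring, Nat.succ_div, if_neg hc, add_zero]
    have h2 := h1 a ha.2
    have h3 := h1 c hc.2
    rcases le_total a c with h | h
    · have h4 : b ∣ c - a := by
        have := Nat.dvd_sub h3 h2
        rwa [show x + c + 1 - (x + a + 1) = c - a by omega] at this
      have := Nat.eq_zero_of_dvd_of_lt h4 (by omega)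
      omega
    · have h4 : b ∣ a - c := by
        have := Nat.dvd_sub h2 h3
        rwa [show x + a + 1 - (x + c + 1) = a - c by omega] at this
      have := Nat.eq_zero_of_dvd_of_lt h4 (by omega)
      omega
  have hsum : ∑ o ∈ range b, cnt w (z o) H ≤ H := by
    simp only [cnt, card_filter]
    rw [sum_comm]
    calc _ ≤ ∑ t ∈ range H, 1 := by
          refine sum_le_sum fun t ht => ?_
          rw [← card_filter]
          obtain ⟨i, h0, h1, h2⟩ := hy t (mem_range.1 ht)
          have hsub : ((range b).filter fun o => z o t / w ≠ z o (t + 1) / w) ⊆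
              (range b).filter fun o => (y t i + o) / b ≠ (y (t + 1) i + o) / b := by
            intro o ho
            rw [mem_filter] at ho ⊢
            refine ⟨ho.1, fun e => ho.2 (hz o (mem_range.1 ho.1) t (mem_range.1 ht) fun j => ?_)⟩
            by_cases hj : j = i
            · rw [hj, e]
            · rw [h0 j hj]
          refine (card_le_card hsub).trans ?_
          rcases lt_trichotomy (y t i) (y (t + 1) i) with h | h | h
          · rw [show y (t + 1) i = y t i + 1 by omega]
            exact key _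
          · simp [h]
          · rw [show y t i = y (t + 1) i + 1 by omega]
            simpa only [ne_comm] using key (y (t + 1) i)
      _ = H := by simp
  by_contra hc
  push Not at hc
  have h1 : ∑ o ∈ range b, (H / b + 1) ≤ ∑ o ∈ range b, cnt w (z o) H :=
    sum_le_sum fun o ho => hc o (mem_range.1 ho)
  rw [sum_const, card_range, smul_eq_mul] at h1
  have := Nat.lt_mul_div_succ H hb
  omega

variable {d : ℕ} {A : Type} (M : GridTM d A)

/-- The code of a state. -/
noncomputable def eQ (q : M.State) : ℕ := (@Finite.equivFin _ M.finState q : ℕ) + 2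

/-- The code of a symbol. -/
noncomputable def eG (a : M.Sym) : ℕ := (@Finite.equivFin _ M.finSym a : ℕ)

/-- Decoding of states. -/
noncomputable def dQ (n : ℕ) : Option M.State :=
  if h : 2 ≤ n ∧ n - 2 < Nat.card M.State then
    some ((@Finite.equivFin _ M.finState).symm ⟨n - 2, h.2⟩) else none

/-- Decoding of symbols. -/
noncomputable def dG (n : ℕ) : Option M.Sym :=
  if h : n < Nat.card M.Sym then some ((@Finite.equivFin _ M.finSym).symm ⟨n, h⟩) else none

/-- The code of a move. -/
def mvc (i : ℕ) : SignType → ℕ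
  | .zero => 0
  | .pos => 2 * i + 1
  | .neg => 2 * i + 2

open Classical in
/-- The final state which belongs to a state. -/
noncomputable def flag (q : M.State) : ℕ := if q ∈ M.accept then 1 else 0

/-- The table of the numerical machines. -/
noncomputable def tr (q s : ℕ) : ℕ × ℕ × ℕ :=
  match dG M s with
  | none => (0, 0, 0)
  | some a =>
    match dQ M q with
    | none => if q ≤ 1 then (q, s, 0) else (0, 0, 0)
    | some q' =>
      match M.step q' a with
      | none => (flag M q', s, 0)
      | some (q'', b, i, σ) => (eQ M q'', eG M b, mvc i σ)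

/-- The numerical machine for `L ^ d` blocks of side `b`, each stored in `w` cells. -/
noncomputable def nm (L b w : ℕ) : NM where
  nQ := Nat.card M.State + 2
  nG := Nat.card M.Sym
  nP := L ^ d * w
  nq := fun q s => (tr M q s).1
  wr := fun q s => (tr M q s).2.1
  np := fun q s p => enc d L b w (fun j => mvz (tr M q s).2.2 j (co L b w p j)) % (L ^ d * w)

/-- The code of the tape symbol which belongs to a symbol of the input tape. -/
noncomputable def code : InSym A → ℕ
  | .letter a => eG M (M.letter a)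
  | _ => eG M M.blank

/-- The initial configuration with the head in the cell `(p0, …, p0)`. -/
def initC (d L b w q0 : ℕ) (I : ℕ → ℕ) (p0 : ℕ) : Cfg :=
  (q0, enc d L b w (fun _ => p0) % (L ^ d * w), fun p =>
    if ∑ j ∈ range d, (if j ≠ 0 ∧ co L b w p j ≠ p0 then 1 else 0) = 0 then I (co L b w p 0 + 1 - p0)
    else I 0)

theorem eQ_lt (q : M.State) : eQ M q < Nat.card M.State + 2 := by
  have := (@Finite.equivFin _ M.finState q).2
  simp only [eQ]
  omega

theorem eG_lt (a : M.Sym) : eG M a < Nat.card M.Sym := (@Finite.equivFin _ M.finSym a).2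

theorem two_le_eQ (q : M.State) : 2 ≤ eQ M q := Nat.le_add_left _ _

theorem flag_le (q : M.State) : flag M q ≤ 1 := by
  unfold flag; split_ifs <;> omega

theorem dQ_eQ (q : M.State) : dQ M (eQ M q) = some q := by
  rw [dQ, dif_pos ⟨two_le_eQ M q, by simp [eQ]⟩]
  simp [eQ]

theorem dG_eG (a : M.Sym) : dG M (eG M a) = some a := by
  rw [dG, dif_pos (show eG M a < Nat.card M.Sym from eG_lt M a)]
  simp [eG]

theorem dQ_flag (q : M.State) : dQ M (flag M q) = none := by
  have := flag_le M q
  rw [dQ, dif_neg (by omega)]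

theorem code_lt (s : InSym A) : code M s < Nat.card M.Sym := by
  cases s <;> exact eG_lt M _

theorem nm_wf {L b w : ℕ} (hL : 0 < L) (hw : 0 < w) : (nm M L b w).WF := by
  have h0 : 0 < Nat.card M.Sym := (Nat.zero_le _).trans_lt (eG_lt M M.blank)
  have key : ∀ q s, (tr M q s).1 < Nat.card M.State + 2 ∧ (tr M q s).2.1 < Nat.card M.Sym := by
    intro q s
    unfold tr
    split
    · exact ⟨by dsimp only; omega, h0⟩
    · rename_i a ha
      have hs : s < Nat.card M.Sym := by
        by_contra hc
        rw [dG, dif_neg hc] at ha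
        cases ha
      split
      · split_ifs
        · exact ⟨by dsimp only; omega, hs⟩
        · exact ⟨by dsimp only; omega, h0⟩
      · rename_i q' _
        split
        · have := flag_le M q'
          exact ⟨by dsimp only; omega, hs⟩
        · exact ⟨eQ_lt M _, eG_lt M _⟩
  exact ⟨fun q s => (key q s).1, fun q s => (key q s).2, fun q s p =>
    Nat.mod_lt _ (by positivity)⟩

/-- The table vanishes outside a finite set. -/
theorem tr_eq_zero {q s : ℕ} (h : Nat.card M.State + 2 ≤ q ∨ Nat.card M.Sym ≤ s) :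
    tr M q s = (0, 0, 0) := by
  unfold tr
  split
  · rfl
  · rename_i a ha
    have hs : s < Nat.card M.Sym := by
      by_contra hc
      rw [dG, dif_neg hc] at ha
      cases ha
    have hq : Nat.card M.State + 2 ≤ q := h.resolve_right (by omega)
    rw [show dQ M q = none from dif_neg (by omega)]
    exact if_neg (by omega)

theorem initC_ok {L b w : ℕ} (hL : 0 < L) (hw : 0 < w) (x : List A) (p0 : ℕ) :
    (initC d L b w (eQ M M.start) (fun i => code M (inAt x i)) p0).Ok (nm M L b w) := by
  refine ⟨eQ_lt M _, fun p => ?_, Nat.mod_lt _ (by positivity)⟩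
  simp only [initC]
  split_ifs <;> exact code_lt M _

/-- The shifted coordinates of a cell. -/
def cz (p0 : ℕ) (h : Fin d → ℤ) (j : ℕ) : ℕ := if hj : j < d then (h ⟨j, hj⟩ + p0).toNat else 0

/-- The shifted coordinates are in the range of the numerical machine. -/
def Val (L p0 : ℕ) (h : Fin d → ℤ) : Prop := ∀ j, 0 ≤ h j + p0 ∧ h j + p0 < L

theorem cz_fin (p0 : ℕ) (h : Fin d → ℤ) (j : Fin d) : cz p0 h j = (h j + p0).toNat := by
  rw [cz, dif_pos j.2]

theorem Val.lt {L p0 : ℕ} {h : Fin d → ℤ} (hv : Val L p0 h) (j : ℕ) (hj : j < d) : cz p0 h j < L := by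
  have := hv ⟨j, hj⟩
  rw [cz, dif_pos hj]
  omega

/-- Configurations of the machine. -/
abbrev Conf := M.State × ((Fin d → ℤ) → M.Sym) × (Fin d → ℤ)

/-- The machine has halted. -/
def Halted (c : Conf M) : Prop := M.step c.1 (c.2.1 c.2.2) = none

/-- The numerical configuration `D` describes the configuration `c`. -/
def Rel (L b w p0 : ℕ) (c : Conf M) (D : Cfg) : Prop :=
  D.2.1 = enc d L b w (cz p0 c.2.2) ∧
    (∀ h, Val L p0 h → D.2.2 (enc d L b w (cz p0 h)) = eG M (c.2.1 h)) ∧
    (D.1 = eQ M c.1 ∨ (Halted M c ∧ D.1 = flag M c.1))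

variable {M} {L b w p0 : ℕ}

theorem next_halted {c : Conf M} (hc : Halted M c) : M.next c = c := by
  unfold GridTM.next
  rw [show M.step c.1 (c.2.1 c.2.2) = none from hc]

theorem Rel.halted (hb : 0 < b) (hw : b ^ d < w) {c : Conf M} {D : Cfg} (h : Rel M L b w p0 c D)
    (hv : Val L p0 c.2.2) (hc : Halted M c) : gstep (nm M L b w) D = (flag M c.1, D.2) := by
  have hr : D.2.2 D.2.1 = eG M (c.2.1 c.2.2) := by rw [h.1, h.2.1 _ hv]
  have ht : tr M D.1 (D.2.2 D.2.1) = (flag M c.1, D.2.2 D.2.1, 0) := by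
    rw [hr]
    rcases h.2.2 with e | ⟨-, e⟩
    · rw [e]
      simp only [tr, dG_eG, dQ_eQ]
      rw [show M.step c.1 (c.2.1 c.2.2) = none from hc]
    · rw [e]
      simp only [tr, dG_eG, dQ_flag]
      rw [if_pos (flag_le M _)]
  simp only [gstep, nm, ht, Function.update_eq_self]
  refine Prod.ext rfl (Prod.ext ?_ rfl)
  show _ = D.2.1
  rw [h.1, enc_congr (z' := cz p0 c.2.2), Nat.mod_eq_of_lt (enc_lt hb hw hv.lt)]
  intro j hj
  rw [co_enc hb hw hv.lt hj, mvz, if_neg (by omega), if_neg (by omega)]

theorem cz_move {h : Fin d → ℤ} {i : Fin d} {σ : SignType} (hv : Val L p0 h)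
    (hv' : Val L p0 (h + Pi.single i (σ : ℤ))) (j : ℕ) (hj : j < d) :
    mvz (mvc i σ) j (cz p0 h j) = cz p0 (h + Pi.single i (σ : ℤ)) j := by
  have h1 := hv ⟨j, hj⟩
  have h2 := hv' ⟨j, hj⟩
  rw [cz, cz, dif_pos hj, dif_pos hj]
  rw [Pi.add_apply] at h2 ⊢
  by_cases hij : (⟨j, hj⟩ : Fin d) = i
  · subst hij
    rw [Pi.single_eq_same] at h2 ⊢
    cases σ
    · have e : ((SignType.zero : SignType) : ℤ) = 0 := rfl
      rw [e] at h2 ⊢
      rw [mvc, mvz, if_neg (by omega), if_neg (by omega), add_zero]
    · have e : ((SignType.neg : SignType) : ℤ) = -1 := rfl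
      rw [e] at h2 ⊢
      rw [mvc, mvz, if_neg (by dsimp only; omega), if_pos rfl]
      omega
    · have e : ((SignType.pos : SignType) : ℤ) = 1 := rfl
      rw [e] at h2 ⊢
      rw [mvc, mvz, if_pos rfl]
      omega
  · have hne : j ≠ i.1 := fun e => hij (Fin.ext e)
    rw [Pi.single_eq_of_ne hij, add_zero]
    cases σ <;> rw [mvc, mvz, if_neg (by omega), if_neg (by omega)]

theorem Rel.step (hb : 0 < b) (hw : b ^ d < w) {c : Conf M} {D : Cfg} (h : Rel M L b w p0 c D)
    (hv : Val L p0 c.2.2) (hv' : Val L p0 (M.next c).2.2) :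
    Rel M L b w p0 (M.next c) (gstep (nm M L b w) D) := by
  rcases e : M.step c.1 (c.2.1 c.2.2) with _ | ⟨q, a, i, σ⟩
  · rw [h.halted hb hw hv e, next_halted e]
    exact ⟨h.1, h.2.1, Or.inr ⟨e, rfl⟩⟩
  · have hq : D.1 = eQ M c.1 := by
      rcases h.2.2 with e' | ⟨e', -⟩
      · exact e'
      · rw [Halted, e] at e'
        cases e'
    have hr : D.2.2 D.2.1 = eG M (c.2.1 c.2.2) := by rw [h.1, h.2.1 _ hv]
    have ht : tr M D.1 (D.2.2 D.2.1) = (eQ M q, eG M a, mvc i σ) := by
      rw [hr, hq]
      simp only [tr, dG_eG, dQ_eQ]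
      rw [e]
    have hn : M.next c = (q, Function.update c.2.1 c.2.2 a, c.2.2 + Pi.single i (σ : ℤ)) := by
      unfold GridTM.next
      rw [e]
    rw [hn] at hv' ⊢
    simp only [gstep, nm, ht]
    refine ⟨?_, fun g hg => ?_, Or.inl rfl⟩
    · show _ % _ = _
      rw [h.1, enc_congr (z' := cz p0 (c.2.2 + Pi.single i (σ : ℤ))),
        Nat.mod_eq_of_lt (enc_lt hb hw hv'.lt)]
      intro j hj
      rw [co_enc hb hw hv.lt hj, cz_move hv hv' j hj]
    · simp only [Function.update_apply]
      by_cases hp : g = c.2.2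
      · rw [if_pos hp, if_pos (by rw [hp, h.1])]
      · rw [if_neg hp, if_neg, h.2.1 g hg]
        intro e'
        apply hp
        funext j
        have e1 := co_enc hb hw hg.lt j.2
        rw [e', h.1, co_enc hb hw hv.lt j.2, cz_fin, cz_fin] at e1
        have := hg j
        have := hv j
        omega

theorem next_head (c : Conf M) : (M.next c).2.2 = c.2.2 ∨
    ∃ (i : Fin d) (σ : SignType), (M.next c).2.2 = c.2.2 + Pi.single i (σ : ℤ) := by
  unfold GridTM.next
  split
  · exact Or.inl rfl
  · exact Or.inr ⟨_, _, rfl⟩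

theorem next_head_le (c : Conf M) (j : Fin d) :
    (M.next c).2.2 j ≤ c.2.2 j + 1 ∧ c.2.2 j ≤ (M.next c).2.2 j + 1 := by
  rcases next_head c with e | ⟨i, σ, e⟩
  · rw [e]; omega
  · rw [e, Pi.add_apply]
    by_cases h : j = i
    · subst h
      rw [Pi.single_eq_same]
      cases σ <;> simp only [SignType.cast] <;> omega
    · rw [Pi.single_eq_of_ne h]; omega

variable [NeZero d]

theorem conf_succ (x : List A) (τ : ℕ) : M.conf x (τ + 1) = M.next (M.conf x τ) :=
  Function.iterate_succ_apply' _ _ _

theorem head_le (x : List A) (τ : ℕ) (j : Fin d) :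
    (M.conf x τ).2.2 j ≤ τ ∧ -(τ : ℤ) ≤ (M.conf x τ).2.2 j := by
  induction τ with
  | zero => simp [GridTM.conf]
  | succ τ ih =>
    have := next_head_le (M.conf x τ) j
    rw [conf_succ]
    push_cast
    omega

theorem val_conf (x : List A) {τ : ℕ} (hτ : τ ≤ p0) (hL : p0 + τ < L) :
    Val L p0 (M.conf x τ).2.2 := fun j => by
  have := head_le (M := M) x τ j
  omega

theorem rel_iter (hb : 0 < b) (hw : b ^ d < w) (x : List A) (τ : ℕ) (hτ : τ ≤ p0) (hL : p0 + τ < L) :
    Rel M L b w p0 (M.conf x τ) ((gstep (nm M L b w))^[τ]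
      (initC d L b w (eQ M M.start) (fun i => code M (inAt x i)) p0)) := by
  induction τ with
  | zero =>
    have hd : 0 < d := Nat.pos_of_ne_zero (NeZero.ne d)
    refine ⟨?_, fun g hg => ?_, Or.inl rfl⟩
    · show _ % _ = _
      rw [Nat.mod_eq_of_lt (enc_lt hb hw fun _ _ => by omega)]
      refine enc_congr fun j hj => ?_
      simp [cz, hj, GridTM.conf]
    · simp only [initC, GridTM.conf, Function.iterate_zero, id]
      have hs : (∑ j ∈ range d, (if j ≠ 0 ∧ co L b w (enc d L b w (cz p0 g)) j ≠ p0 then 1 else 0)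
          = 0) ↔ ∀ j, j ≠ 0 → g j = 0 := by
        rw [sum_eq_zero_iff]
        constructor
        · intro h j hj
          have h1 := h j (mem_range.2 j.2)
          rw [co_enc hb hw hg.lt j.2, cz_fin] at h1
          have h2 : j.1 ≠ 0 := fun e => hj (Fin.ext e)
          have h3 := hg j
          by_contra hc
          rw [if_pos ⟨h2, by omega⟩] at h1
          exact one_ne_zero h1
        · intro h j hj
          have hj' := mem_range.1 hj
          rw [if_neg]
          rintro ⟨h1, h2⟩
          apply h2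
          rw [co_enc hb hw hg.lt hj', cz, dif_pos hj', h ⟨j, hj'⟩ fun e => h1 (congrArg Fin.val e)]
          simp
      have h0 : co L b w (enc d L b w (cz p0 g)) 0 = (g 0 + p0).toNat := by
        rw [co_enc hb hw hg.lt hd, ← cz_fin]
        rfl
      have h3 := hg 0
      by_cases h1 : ∀ j, j ≠ 0 → g j = 0
      · rw [if_pos (hs.2 h1), h0]
        by_cases h2 : 0 ≤ g 0
        · rw [if_pos ⟨h1, h2⟩, show (g 0 + p0).toNat + 1 - p0 = (g 0).toNat + 1 by omega, inAt]
          cases x[(g 0).toNat]? <;> rfl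
        · rw [if_neg fun h => h2 h.2, show (g 0 + p0).toNat + 1 - p0 = 0 by omega]
          rfl
      · rw [if_neg fun h => h1 (hs.1 h), if_neg fun h => h1 h.1]
        rfl
  | succ τ ih =>
    rw [conf_succ, Function.iterate_succ_apply']
    refine (ih (by omega) (by omega)).step hb hw (val_conf x (by omega) (by omega)) ?_
    rw [← conf_succ]
    exact val_conf x hτ hL

theorem conf_halted {x : List A} {τ τ' : ℕ} (h : Halted M (M.conf x τ)) (hτ : τ ≤ τ') :
    M.conf x τ' = M.conf x τ := by
  obtain ⟨n, rfl⟩ := Nat.exists_eq_add_of_le hτ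
  rw [GridTM.conf, add_comm, Function.iterate_add_apply]
  exact Function.iterate_fixed (next_halted h) n

/-- Soundness: a final state of the numerical machine gives the answer. -/
theorem nm_sound (hb : 0 < b) (hw : b ^ d < w) {x : List A} {τ₀ : ℕ} (h₀ : Halted M (M.conf x τ₀))
    {τ : ℕ} (hτ : τ ≤ p0) (hL : p0 + τ < L)
    (h : ((gstep (nm M L b w))^[τ]
      (initC d L b w (eQ M M.start) (fun i => code M (inAt x i)) p0)).1 ≤ 1) :
    ((gstep (nm M L b w))^[τ] (initC d L b w (eQ M M.start) (fun i => code M (inAt x i)) p0)).1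
      = flag M (M.conf x τ₀).1 := by
  rcases (rel_iter (M := M) hb hw x τ hτ hL).2.2 with e | ⟨e, e'⟩
  · have := two_le_eQ M (M.conf x τ).1
    omega
  · rw [e']
    rcases le_total τ τ₀ with h1 | h1
    · rw [conf_halted e h1]
    · rw [conf_halted h₀ h1]

/-- Completeness: for some offset the visits of the blocks reach a final state. -/
theorem nm_complete (hb : 0 < b) (hw : b ^ d < w) {x : List A} {τ₀ : ℕ}
    (h₀ : Halted M (M.conf x τ₀)) {T m base : ℕ} (hT : τ₀ + 1 ≤ T) (hbase : T ≤ base)
    (hL : 2 * base + b < L) (hm : T / b < m) : ∃ o < b,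
    ((mac (nm M L b w) w T)^[m]
      (initC d L b w (eQ M M.start) (fun i => code M (inAt x i)) (base + o))).1 ≤ 1 := by
  set c : ℕ → Cfg := initC d L b w (eQ M M.start) fun i => code M (inAt x i) with hc
  have hcz : ∀ t ≤ τ₀ + 1, ∀ o, ∀ j < d, cz (base + o) (M.conf x t).2.2 j
      = cz base (M.conf x t).2.2 j + o := by
    intro t ht o j hj
    have := head_le (M := M) x t ⟨j, hj⟩
    rw [cz, cz, dif_pos hj, dif_pos hj]
    omega
  obtain ⟨o, ho, hcnt⟩ := exists_offset' hb (fun t => cz base (M.conf x t).2.2) (τ₀ + 1)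
    (fun t ht => by
      have hd : 0 < d := Nat.pos_of_ne_zero (NeZero.ne d)
      rcases next_head (M.conf x t) with e | ⟨i, σ, e⟩
      · refine ⟨0, ?_⟩
        simp only [conf_succ, e]
        exact ⟨fun _ _ => trivial, by omega, by omega⟩
      · refine ⟨i, fun j hj => ?_, ?_⟩
        · simp only [conf_succ, e, cz]
          split_ifs with h
          · rw [Pi.add_apply, Pi.single_eq_of_ne fun e' => hj (congrArg Fin.val e'), add_zero]
          · rfl
        · have := next_head_le (M.conf x t) i
          simp only [conf_succ, cz_fin]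
          omega)
    (fun o t => ((gstep (nm M L b w))^[t] (c (base + o))).2.1) w
    (fun o ho t ht h => by
      have h1 := (rel_iter (M := M) (L := L) (p0 := base + o) hb hw x t (by omega) (by omega)).1
      have h2 := (rel_iter (M := M) (L := L) (p0 := base + o) hb hw x (t + 1) (by omega)
        (by omega)).1
      rw [← hc] at h1 h2
      simp only [h1, h2, enc_div hb hw]
      refine ofd_congr _ _ _ fun j hj => ?_
      rw [hcz t (by omega) o j hj, hcz (t + 1) (by omega) o j hj]
      exact h j)
  refine ⟨o, ho, ?_⟩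
  have h1 := (rel_iter (M := M) (L := L) (p0 := base + o) hb hw x τ₀ (by omega) (by omega)).halted
    hb hw (val_conf x (by omega) (by omega)) h₀
  have h2 := (rel_iter (M := M) (L := L) (p0 := base + o) hb hw x (τ₀ + 1) (by omega)
    (by omega)).halted hb hw (val_conf x (by omega) (by omega))
    (by rwa [conf_halted h₀ (Nat.le_succ _)])
  rw [← hc] at h1 h2
  rw [conf_halted h₀ (Nat.le_succ _)] at h2
  have h3 : (gstep (nm M L b w))^[τ₀ + 1] (c (base + o))
      = (flag M (M.conf x τ₀).1, ((gstep (nm M L b w))^[τ₀] (c (base + o))).2) := by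
    rw [Function.iterate_succ_apply', h1]
  have h4 : (τ₀ + 1) / b ≤ T / b := Nat.div_le_div_right hT
  rw [mac_iter_halt (H := τ₀ + 1) _ hT (by rw [h2, h3]) (by omega), h3]
  exact flag_le M _

end Vale.Agent.N312.G
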