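import Vale.Agent.N312.GLink

/-!
Time `t` on one `d`-dimensional tape is contained in space `t ^ (2 d / (3 d + 2)) * log t`.
-/

namespace Vale.Agent.N312.G

open Finset Vale.Agent.P312 Vale.Agent.Lib.Space

section

variable {A α : Type} {B : Bud A} [Enc A α]

theorem sp_ofd {b : α → ℕ} (hb : SP B b) : ∀ (n : ℕ) (f : α → ℕ → ℕ), (∀ j, SP B fun v => f v j) →
    SP B fun v => ofd (b v) n (f v)
  | 0, _, _ => SP.const 0
  | n + 1, f, hf => (hf 0).add (hb.mul (sp_ofd hb n (fun v i => f v (i + 1)) fun j => hf (j + 1)))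

theorem sp_co {L b w p : α → ℕ} (hL : SP B L) (hb : SP B b) (hw : SP B w) (hp : SP B p) (j : ℕ) :
    SP B fun v => co (L v) (b v) (w v) (p v) j := by
  unfold co
  fun_prop

theorem sp_enc (d : ℕ) {L b w : α → ℕ} {z : α → ℕ → ℕ} (hL : SP B L) (hb : SP B b) (hw : SP B w)
    (hz : ∀ j, SP B fun v => z v j) : SP B fun v => enc d (L v) (b v) (w v) (z v) :=
  ((sp_ofd hL d (fun v j => z v j / b v) fun j => (hz j).div hb).mul hw).add
    (sp_ofd hb d (fun v j => z v j % b v) fun j => (hz j).mod hb)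

theorem sp_mvz {m x : α → ℕ} (hm : SP B m) (hx : SP B x) (j : ℕ) :
    SP B fun v => mvz (m v) j (x v) :=
  SP.ite (SP.decide_eq hm (SP.const _)) (hx.add (SP.const 1))
    (SP.ite (SP.decide_eq hm (SP.const _)) (hx.sub (SP.const 1)) hx)

variable {d : ℕ} (M : GridTM d A)

theorem nm_comp {L b w : α → ℕ} (hL : SP B L) (hb : SP B b) (hw : SP B w) (hL0 : ∀ v, 0 < L v)
    (hw0 : ∀ v, 0 < w v) : Comp B fun v => nm M (L v) (b v) (w v) where
  wf := fun v => nm_wf M (hL0 v) (hw0 v)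
  nQ := SP.const _
  nG := SP.const _
  nP := (hL.pow_const d).mul hw
  nq := (sp_table2 (Nat.card M.State + 2) (Nat.card M.Sym) (fun q s => (tr M q s).1)
    fun a b h => by rw [tr_eq_zero M h]).comp (g := fun p : α × ℕ × ℕ => p.2) (by fun_prop)
  wr := (sp_table2 (Nat.card M.State + 2) (Nat.card M.Sym) (fun q s => (tr M q s).2.1)
    fun a b h => by rw [tr_eq_zero M h]).comp (g := fun p : α × ℕ × ℕ => p.2) (by fun_prop)
  np := by
    have h1 : SP B fun p : α × ℕ × ℕ × ℕ => (tr M p.2.1 p.2.2.1).2.2 :=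
      (sp_table2 (Nat.card M.State + 2) (Nat.card M.Sym) (fun q s => (tr M q s).2.2)
        fun a b h => by rw [tr_eq_zero M h]).comp
        (g := fun p : α × ℕ × ℕ × ℕ => (p.2.1, p.2.2.1)) (by fun_prop)
    have hL' : SP B fun p : α × ℕ × ℕ × ℕ => L p.1 := by fun_prop
    have hb' : SP B fun p : α × ℕ × ℕ × ℕ => b p.1 := by fun_prop
    have hw' : SP B fun p : α × ℕ × ℕ × ℕ => w p.1 := by fun_prop
    exact (sp_enc d hL' hb' hw' fun j => sp_mvz h1 (sp_co hL' hb' hw' (by fun_prop) j) j).mod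
      ((hL'.pow_const d).mul hw')

end

/-- The bound for the total number of steps. -/
def gBase (d ρ : ℕ) : ℕ := pLf (ρ ^ d) * ρ ^ d * ρ ^ (3 * d + 2)

/-- The number of blocks in each direction. -/
def gL (d ρ : ℕ) : ℕ := 2 * gBase d ρ + ρ * ρ + 1

variable {d : ℕ} {A : Type} (M : GridTM d A)

/-- The family of numerical machines for the input `x`. -/
noncomputable def fam (x : List A) : Fam where
  M := fun ρ => nm M (gL d ρ) (ρ * ρ) (ρ ^ d * ρ ^ d + 1)
  r := fun ρ => ρ ^ d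
  T := fun ρ => ρ ^ (3 * d + 2)
  O := fun ρ => ρ * ρ
  c := fun ρ o => initC d (gL d ρ) (ρ * ρ) (ρ ^ d * ρ ^ d + 1) (eQ M M.start)
    (fun i => code M (inAt x i)) (gBase d ρ + o)

theorem gL_pos (d ρ : ℕ) : 0 < gL d ρ := Nat.succ_pos _

theorem fam_wf [NeZero d] (x : List A) : (fam M x).WF where
  wf := fun ρ => nm_wf M (gL_pos d ρ) (Nat.succ_pos _)
  ok := fun ρ _ => initC_ok M (gL_pos d ρ) (Nat.succ_pos _) x _
  le_r := fun ρ => Nat.le_self_pow (NeZero.ne d) ρ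
  O_le := fun ρ => by
    have h := Nat.le_self_pow (NeZero.ne d) ρ
    exact (Nat.mul_le_mul h h).trans (Nat.le_succ _)

theorem fam_comp [NeZero d] [Finite A] (B : Bud A) : FComp B fun x : Inp A => fam M x := by
  have hB : ∀ {α : Type} [Enc A α] {ρ : α → ℕ}, SP B ρ → SP B fun v => gBase d (ρ v) :=
    fun h => ((sp_pLf (h.pow_const d)).mul (h.pow_const d)).mul (h.pow_const _)
  have hL : ∀ {α : Type} [Enc A α] {ρ : α → ℕ}, SP B ρ → SP B fun v => gL d (ρ v) :=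
    fun h => (((SP.const 2).mul (hB h)).add (h.mul h)).add (SP.const 1)
  have hw : ∀ {α : Type} [Enc A α] {ρ : α → ℕ}, SP B ρ → SP B fun v => ρ v ^ d * ρ v ^ d + 1 :=
    fun h => ((h.pow_const d).mul (h.pow_const d)).add (SP.const 1)
  refine ⟨fam_wf M, nm_comp M (hL SP.snd') (SP.snd'.mul SP.snd') (hw SP.snd')
    (fun _ => gL_pos _ _) fun _ => Nat.succ_pos _, SP.snd'.pow_const d, SP.snd'.pow_const _,
    SP.snd'.mul SP.snd', ?_, ?_⟩
  · have h1 : SP B fun p : Inp A × ℕ × ℕ => p.2.1 := by fun_prop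
    have h2 : SP B fun p : Inp A × ℕ × ℕ => p.2.2 := by fun_prop
    exact (SP.const _).add ((SP.const _).mul ((sp_enc d (hL h1) (h1.mul h1) (hw h1)
      fun _ => (hB h1).add h2).mod (((hL h1).pow_const d).mul (hw h1))))
  · have h1 : SP B fun p : Inp A × ℕ × ℕ × ℕ => p.2.1 := by fun_prop
    have h2 : SP B fun p : Inp A × ℕ × ℕ × ℕ => p.2.2.1 := by fun_prop
    have h3 : SP B fun p : Inp A × ℕ × ℕ × ℕ => p.2.2.2 := by fun_prop
    have h4 := fun j => sp_co (hL h1) (h1.mul h1) (hw h1) h3 j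
    have h5 := (hB h1).add h2
    refine SP.ite (SP.decide_eq (SP.finset_sum (range d) (f := fun j (p : Inp A × ℕ × ℕ × ℕ) =>
      if j ≠ 0 ∧ co (gL d p.2.1) (p.2.1 * p.2.1) (p.2.1 ^ d * p.2.1 ^ d + 1) p.2.2.2 j
        ≠ gBase d p.2.1 + p.2.2.1 then 1 else 0) fun j => ?_) (SP.const 0))
      (SP.inCode (code M) SP.fst' (((h4 0).add (SP.const 1)).sub h5))
      (SP.inCode (code M) SP.fst' (SP.const 0))
    exact SP.ite (SP.decide_and (SP.const _) (SP.decide_ne (h4 j) h5)) (SP.const 1) (SP.const 0)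

theorem blk_lt (d ρ : ℕ) : (ρ * ρ) ^ d < ρ ^ d * ρ ^ d + 1 := by
  rw [mul_pow]
  exact Nat.lt_succ_self _

theorem fam_sound [NeZero d] {x : List A} {τ₀ : ℕ} (h₀ : Halted M (M.conf x τ₀)) (ρ o : ℕ)
    (ho : o < (fam M x).O ρ) (h : (fam M x).fin ρ o ≤ 1) :
    (fam M x).fin ρ o = flag M (M.conf x τ₀).1 := by
  obtain ⟨τ, hτ, e⟩ := mac_iter_eq (M := (fam M x).M ρ) (w := (fam M x).r ρ * (fam M x).r ρ + 1)
    (T := (fam M x).T ρ) ((fam M x).c ρ o) (pLf ((fam M x).r ρ) * (fam M x).r ρ)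
  rw [Fam.fin, e] at h ⊢
  have h1 : τ ≤ gBase d ρ := hτ
  have h2 : o < ρ * ρ := ho
  exact nm_sound (by omega) (blk_lt d ρ) h₀ (by omega) (by unfold gL; omega) h

theorem fam_complete [NeZero d] {x : List A} {τ₀ ρ : ℕ} (h₀ : Halted M (M.conf x τ₀)) (hρ : 1 ≤ ρ)
    (hT : τ₀ + 1 ≤ ρ ^ (3 * d + 2)) : ∃ o < (fam M x).O ρ, (fam M x).fin ρ o ≤ 1 := by
  have hr : 1 ≤ ρ ^ d := Nat.one_le_pow _ _ hρ
  have hb : 0 < ρ * ρ := Nat.mul_pos hρ hρ
  have hm : ρ ^ d * ρ ^ d * ρ ^ d < pLf (ρ ^ d) * ρ ^ d := by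
    unfold pLf
    nlinarith [Nat.mul_pos hr hr]
  refine nm_complete hb (blk_lt d ρ) h₀ hT (Nat.le_mul_of_pos_left _ (by omega))
    (Nat.lt_succ_self _) ?_
  show ρ ^ (3 * d + 2) / (ρ * ρ) < pLf (ρ ^ d) * ρ ^ d
  rwa [show ρ ^ (3 * d + 2) = ρ ^ d * ρ ^ d * ρ ^ d * (ρ * ρ) by ring, Nat.mul_div_cancel _ hb]

theorem fam_bound : ∃ c, ∀ x ρ, pBound (fam M x) ρ + 2 ≤ (ρ + 2) ^ (c * (ρ ^ d + 1) ^ 2) := by
  have h0 : PB fun ρ => ρ ^ d := PB.id.pow d
  have h1 : PB fun ρ => pLf (ρ ^ d) := (h0.add (PB.const 1)).mul h0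
  have h2 : PB (gBase d) := (h1.mul h0).mul (PB.id.pow _)
  have h3 : PB fun ρ => ρ ^ d * ρ ^ d + 1 := (h0.mul h0).add (PB.const 1)
  have h4 : PB (gL d) := (((PB.const 2).mul h2).add (PB.id.mul PB.id)).add (PB.const 1)
  have h5 : PB (pD (fam M [])) := ((((PB.const _).mul ((h4.pow d).mul h3)).add (PB.const _)).add
    h1).add (PB.const 1)
  have h6 : PB (pK (fam M [])) := (h0.mul (h3.mul h5)).add (PB.const 7)
  obtain ⟨a, ha⟩ : PB fun ρ => 2 * pK (fam M []) ρ + 1 := ((PB.const 2).mul h6).add (PB.const 1)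
  refine ⟨a * 18 + 3, fun x ρ => ?_⟩
  have e1 : pBound (fam M x) ρ + 2 = (2 * pK (fam M []) ρ + 1) ^ pE (ρ ^ d) + 3 := rfl
  have e2 : (2 * pK (fam M []) ρ + 1) ^ pE (ρ ^ d) ≤ (ρ + 2) ^ (a * pE (ρ ^ d)) := by
    rw [pow_mul]
    exact Nat.pow_le_pow_left (ha ρ) _
  have e3 : 3 ≤ (ρ + 2) ^ 2 := le_trans (by norm_num) (Nat.pow_le_pow_left (Nat.le_add_left 2 ρ) 2)
  rw [e1]
  refine (add_le_pow ρ e2 e3).trans (pow_mono_r ρ ?_)
  have : 1 ≤ (ρ ^ d + 1) ^ 2 := Nat.one_le_pow _ _ (by omega)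
  rw [pE, ← sq]
  nlinarith

/-- The least `r ≥ 1` with `t < r ^ k`. -/
theorem exists_root' {k : ℕ} (hk : k ≠ 0) (t : ℕ) : ∃ r, 1 ≤ r ∧ t + 1 ≤ r ^ k ∧ (r - 1) ^ k ≤ t := by
  classical
  have h : ∃ r, t + 1 ≤ r ^ k := ⟨t + 1, Nat.le_self_pow hk _⟩
  have h1 : 1 ≤ Nat.find h := by
    by_contra h2
    have h3 := Nat.find_spec h
    rw [show Nat.find h = 0 by omega, zero_pow hk] at h3
    omega
  refine ⟨Nat.find h, h1, Nat.find_spec h, ?_⟩
  have := Nat.find_min h (m := Nat.find h - 1) (by omega)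
  omega

theorem log_bound' {k : ℕ} (hk : k ≠ 0) (d c : ℕ) : ∃ C : ℝ, ∀ t r B : ℕ, 2 ≤ t → (r - 1) ^ k ≤ t →
    B ≤ (r + 2) ^ (c * (r ^ d + 1) ^ 2) →
    ((Nat.log 2 B : ℕ) : ℝ) ≤ C * ((t : ℝ) ^ (2 * d / k : ℝ) * Real.log t) := by
  refine ⟨3 * c * (2 ^ d + 1) ^ 2 / Real.log 2, fun t r B ht hr hB => ?_⟩
  have hl2 : 0 < Real.log 2 := Real.log_pos (by norm_num)
  have ht' : (2 : ℝ) ≤ t := by exact_mod_cast ht
  have hk' : (k : ℝ) ≠ 0 := by exact_mod_cast hk
  have hlt : Real.log 2 ≤ Real.log t := Real.log_le_log (by norm_num) ht'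
  set y : ℝ := (t : ℝ) ^ (1 / k : ℝ) with hy
  have hy1 : 1 ≤ y := Real.one_le_rpow (by linarith) (by positivity)
  have hy5 : y ^ k = t := by
    rw [hy, ← Real.rpow_natCast, ← Real.rpow_mul (by linarith), one_div_mul_cancel hk',
      Real.rpow_one]
  have hy2 : (t : ℝ) ^ (2 * d / k : ℝ) = (y ^ d) ^ 2 := by
    rw [hy, ← pow_mul, ← Real.rpow_natCast, ← Real.rpow_mul (by linarith)]
    congr 1
    push_cast
    ring
  have hry : ((r - 1 : ℕ) : ℝ) ≤ y := by
    refine le_of_pow_le_pow_left₀ hk (by linarith) ?_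
    rw [hy5]; exact_mod_cast hr
  have hr1 : (r : ℝ) ≤ 2 * y := by
    have : (r : ℝ) ≤ ((r - 1 : ℕ) : ℝ) + 1 := by exact_mod_cast (by omega : r ≤ r - 1 + 1)
    linarith
  have hyd : 1 ≤ y ^ d := one_le_pow₀ hy1
  have hr3 : (r : ℝ) ^ d + 1 ≤ (2 ^ d + 1) * y ^ d := by
    have := pow_le_pow_left₀ (Nat.cast_nonneg r) hr1 d
    rw [mul_pow] at this
    linarith
  have hr2 : r + 2 ≤ t ^ 3 := by
    have h1 : r - 1 ≤ (r - 1) ^ k := Nat.le_self_pow hk _
    have h2 : r ≤ t + 1 := by omega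
    have h3 : 2 * 2 ≤ t * t := Nat.mul_le_mul ht ht
    have h4 : t ^ 3 = t * t * t := by ring
    nlinarith
  have hlog : Real.log ((r : ℝ) + 2) ≤ 3 * Real.log t := by
    have : ((r : ℝ) + 2) ≤ (t : ℝ) ^ 3 := by exact_mod_cast hr2
    have h2 := Real.log_le_log (by positivity) this
    rwa [Real.log_pow] at h2
  have hl0 : 0 ≤ Real.log ((r : ℝ) + 2) :=
    Real.log_nonneg (by linarith [(Nat.cast_nonneg r : (0 : ℝ) ≤ r)])
  have hN : (Nat.log 2 B : ℝ) * Real.log 2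
      ≤ (c * ((r : ℝ) ^ d + 1) ^ 2) * Real.log ((r : ℝ) + 2) := by
    rcases Nat.eq_zero_or_pos B with rfl | hB0
    · simp only [Nat.log_zero_right, Nat.cast_zero, zero_mul]
      positivity
    have h1 : 2 ^ Nat.log 2 B ≤ (r + 2) ^ (c * (r ^ d + 1) ^ 2) :=
      (Nat.pow_log_le_self 2 hB0.ne').trans hB
    have h2 : (2 : ℝ) ^ Nat.log 2 B ≤ ((r : ℝ) + 2) ^ (c * (r ^ d + 1) ^ 2) := by exact_mod_cast h1
    have h3 := Real.log_le_log (by positivity) h2
    rw [Real.log_pow, Real.log_pow] at h3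
    push_cast at h3
    exact h3
  have hsq : ((r : ℝ) ^ d + 1) ^ 2 ≤ ((2 ^ d + 1) * y ^ d) ^ 2 :=
    pow_le_pow_left₀ (by positivity) hr3 2
  rw [hy2, div_mul_eq_mul_div, le_div_iff₀ hl2]
  refine hN.trans ((mul_le_mul (mul_le_mul_of_nonneg_left hsq (Nat.cast_nonneg c)) hlog hl0
    (by positivity)).trans (le_of_eq ?_))
  ring

/-- **The simulation of one `d`-dimensional tape.** -/
theorem time_subset (d : ℕ) [NeZero d] (A : Type) (t : ℕ → ℕ) (ht : ∀ n, n ≤ t n) :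
    TIME d A t ⊆ SPACE A fun n => (t n : ℝ) ^ (2 * d / (3 * d + 2) : ℝ) * Real.log (t n) := by
  rintro L ⟨M, hM⟩
  have : Finite A := @Finite.of_injective _ _ M.finSym _ M.letter.injective
  choose τ hτ hhalt hacc using hM
  choose ρ hρ1 hρ2 hρ3 using exists_root' (k := 3 * d + 2) (by omega)
  refine core (fam M) (fun x => flag M (M.conf x (τ x)).1) (fun x => ρ (t x.length))
    (fam_comp M) (fun x => flag_le M _) (fun x => ?_) (fun x => fam_sound M (hhalt x))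
    (fun x => ⟨Nat.one_le_pow _ _ (hρ1 _), fam_complete M (hhalt x) (hρ1 _)
      ((Nat.succ_le_succ (hτ x)).trans (hρ2 _))⟩) ?_
  · refine Iff.trans ?_ (hacc x)
    unfold flag
    split_ifs with h <;> simp [h]
  · obtain ⟨c, hc⟩ := fam_bound M
    obtain ⟨C, hC⟩ := log_bound' (k := 3 * d + 2) (by omega) d c
    refine ⟨C, 2, fun x hx => ?_⟩
    have := hC _ _ _ (hx.trans (ht _)) (hρ3 _) (hc x _)
    push_cast at this ⊢
    exact this

theorem time_subset_rpow (d : ℕ) [NeZero d] (A : Type) (t : ℕ → ℕ) (ht : ∀ n, n ≤ t n) {e : ℝ}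
    (he : 2 * d / (3 * d + 2) < e) : TIME d A t ⊆ SPACE A fun n => (t n : ℝ) ^ e := by
  refine (time_subset d A t ht).trans ?_
  have h3 : (0 : ℝ) ≤ 2 * d / (3 * d + 2) := by positivity
  generalize (2 * d / (3 * d + 2) : ℝ) = a at *
  refine SPACE_mono (fun n => mul_nonneg (by positivity) (Real.log_natCast_nonneg _))
    ⟨1 / (e - a), 0, fun n _ => ?_⟩
  have h0 : (0 : ℝ) ≤ t n := Nat.cast_nonneg _
  have h1 := Real.log_le_rpow_div h0 (sub_pos.2 he)
  have h2 : (t n : ℝ) ^ e = (t n : ℝ) ^ a * (t n : ℝ) ^ (e - a) := by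
    rw [← Real.rpow_add' h0 (by linarith)]
    congr 1
    ring
  rw [h2]
  calc (t n : ℝ) ^ a * Real.log (t n) ≤ (t n : ℝ) ^ a * ((t n : ℝ) ^ (e - a) / (e - a)) :=
        mul_le_mul_of_nonneg_left h1 (by positivity)
    _ = _ := by ring

open Turing in
/-- The machines of the library are machines with a one-dimensional tape. -/
theorem time0_subset (A : Type) (t : ℕ → ℕ) : TIME0 A t ⊆ TIME 1 A t := by
  rintro L ⟨Γ, Λ, _, _, hΓ, hΛ, M, ι, acc, hι, hM⟩
  let N : GridTM 1 A :=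
    { Sym := Γ, State := Λ, finSym := hΓ, finState := hΛ, blank := default, letter := ι,
      letter_ne_blank := hι, start := default, accept := acc,
      step := fun q a => (M q a).map fun p => match p.2 with
        | .move .left => (p.1, a, 0, .neg)
        | .move .right => (p.1, a, 0, .pos)
        | .write b => (p.1, b, 0, .zero) }
  have hz : ∀ z : Fin 1 → ℤ, (fun _ => z 0) = z := fun z => funext fun j => by
    rw [Subsingleton.elim j 0]
  have key : ∀ (x : List A) (τ : ℕ) (c : TM0.Cfg Γ Λ),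
      (fun o => Option.bind o (TM0.step M))^[τ] (some (TM0.init (x.map ι))) = some c →
      (N.conf x τ).1 = c.q ∧ ∀ i : ℤ, c.Tape.nth i
        = (N.conf x τ).2.1 fun _ => (N.conf x τ).2.2 0 + i := by
    intro x τ
    induction τ with
    | zero =>
      rintro c ⟨rfl⟩
      refine ⟨rfl, fun i => ?_⟩
      simp only [GridTM.conf, Function.iterate_zero, id, Pi.zero_apply, zero_add]
      rcases i with n | n
      · rw [if_pos ⟨fun j hj => absurd (Subsingleton.elim j 0) hj, Int.natCast_nonneg n⟩]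
        refine (Tape.mk'_nth_nat _ _ n).trans ?_
        rw [ListBlank.nth_mk, List.getI_eq_getElem?_getD, List.getElem?_map]
        rfl
      · rw [if_neg fun h => absurd h.2 (not_le.2 (Int.negSucc_lt_zero n))]
        rfl
    | succ τ ih =>
      intro c hc
      rw [Function.iterate_succ_apply'] at hc
      obtain ⟨c', hc', hs⟩ := Option.bind_eq_some_iff.1 hc
      obtain ⟨h1, h2⟩ := ih c' hc'
      obtain ⟨⟨q, s⟩, h3, rfl⟩ := Option.map_eq_some_iff.1 hs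
      have h4 : (N.conf x τ).2.1 (N.conf x τ).2.2 = c'.Tape.head := by
        rw [← Tape.nth_zero, h2, add_zero, hz]
      rw [conf_succ]
      unfold GridTM.next
      rw [h1, h4]
      simp only [N, h3, Option.map_some]
      rcases s with (_ | _) | b
      · refine ⟨rfl, fun i => ?_⟩
        dsimp only
        rw [Tape.move_left_nth, h2, ← h4, Function.update_eq_self, Pi.add_apply, Pi.single_eq_same]
        refine congrArg (N.conf x τ).2.1 (funext fun _ => ?_)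
        show _ = (N.conf x τ).2.2 0 + (-1 : ℤ) + _
        ring
      · refine ⟨rfl, fun i => ?_⟩
        dsimp only
        rw [Tape.move_right_nth, h2, ← h4, Function.update_eq_self, Pi.add_apply, Pi.single_eq_same]
        refine congrArg (N.conf x τ).2.1 (funext fun _ => ?_)
        show _ = (N.conf x τ).2.2 0 + (1 : ℤ) + _
        ring
      · refine ⟨rfl, fun i => ?_⟩
        dsimp only
        rw [Tape.write_nth, Pi.add_apply, Pi.single_eq_same,
          show ((SignType.zero : SignType) : ℤ) = 0 from rfl, add_zero, Function.update_apply, h2]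
        refine if_congr ⟨fun h => by rw [h, add_zero, hz], fun h => ?_⟩ rfl rfl
        have := congrFun h 0
        omega
  refine ⟨N, fun x => ?_⟩
  obtain ⟨τ, hτ, c, h1, h2, h3⟩ := hM x
  obtain ⟨h4, h5⟩ := key x τ c h1
  refine ⟨τ, hτ, ?_, by rw [h4]; exact h3⟩
  have h6 : (N.conf x τ).2.1 (N.conf x τ).2.2 = c.Tape.head := by
    rw [← Tape.nth_zero, h5, add_zero, hz]
  rw [h4, h6]
  simp only [N]
  rw [Option.map_eq_none_iff.1 h2]
  rfl

theorem time_one (A : Type) (t : ℕ → ℕ) (ht : ∀ n, n ≤ t n) :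
    TIME 1 A t ⊆ SPACE A fun n => (t n : ℝ) ^ (1 / 2 - 1 / 20 : ℝ) :=
  time_subset_rpow 1 A t ht (by norm_num)

theorem sInf_le' (d : ℕ) [NeZero d] (K : Set (ℕ → ℕ)) :
    sInf {e : ℝ | 0 ≤ e ∧ ∀ (A : Type) [Finite A], ∀ t ∈ K, (∀ n, n ≤ t n) →
      TIME d A t ⊆ SPACE A fun n => (t n : ℝ) ^ e} ≤ 2 * d / (3 * d + 2) := by
  refine le_of_forall_gt_imp_ge_of_dense fun e he => csInf_le ⟨0, fun _ h => h.1⟩ ?_
  exact ⟨le_trans (by positivity) he.le, fun A _ t _ ht => time_subset_rpow d A t ht he⟩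

end Vale.Agent.N312.G
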