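import Vale.Agent.N312.GSp

/-!
One try of the simulation for a family of numerical machines, the search over all tries, soundness, completeness, and the
general simulation theorem.
-/

namespace Vale.Agent.N312.G

open Finset Vale.Agent.P312 Vale.Agent.Lib.Space

/-- A family of machines with parameters and initial configurations. -/
structure Fam where
  /-- the machines -/
  M : ℕ → NM
  /-- the square root of the size of the blocks -/
  r : ℕ → ℕ
  /-- the bound for the length of a visit -/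
  T : ℕ → ℕ
  /-- the bound for the offsets -/
  O : ℕ → ℕ
  /-- the initial configurations -/
  c : ℕ → ℕ → Cfg

/-- The family is well formed. -/
structure Fam.WF (F : Fam) : Prop where
  wf : ∀ ρ, (F.M ρ).WF
  ok : ∀ ρ o, (F.c ρ o).Ok (F.M ρ)
  le_r : ∀ ρ, ρ ≤ F.r ρ
  O_le : ∀ ρ, F.O ρ ≤ F.r ρ * F.r ρ + 1

/-- The state at the end of the macro steps. -/
def Fam.fin (F : Fam) (ρ o : ℕ) : ℕ :=
  ((mac (F.M ρ) (F.r ρ * F.r ρ + 1) (F.T ρ))^[pLf (F.r ρ) * F.r ρ] (F.c ρ o)).1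

/-- Bound for events and symbols. -/
def pD (F : Fam) (ρ : ℕ) : ℕ := (F.M ρ).nQ * (F.M ρ).nP + (F.M ρ).nG + pLf (F.r ρ) + 1

/-- Lower bound for the prime. -/
def pK (F : Fam) (ρ : ℕ) : ℕ := F.r ρ * ((F.r ρ * F.r ρ + 1) * pD F ρ) + 7

/-- The parameters are admissible. -/
def good (F : Fam) (ρ o q P : ℕ) : Prop :=
  1 ≤ F.r ρ ∧ o < F.O ρ ∧ nDiv q = 0 ∧ pK F ρ < q ∧ cpow (P + 1) (q + 1) (pE (F.r ρ)) ≤ P

instance (F : Fam) (ρ o q P : ℕ) : Decidable (good F ρ o q P) := by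
  unfold good; infer_instance

/-- The graph of the try. -/
def tryDag (F : Fam) (ρ o q P : ℕ) : Dag :=
  mkDag (F.M ρ) P (pD F ρ) q (F.r ρ) (F.r ρ) (F.T ρ) (evc (F.M ρ) (F.c ρ o)) (F.c ρ o).2.2

/-- The initial state of the stack machine. -/
def tryInit (F : Fam) (ρ o q P : ℕ) : ℕ × ℕ × ℕ × ℕ :=
  (if good F ρ o q P then
    enter q ((F.r ρ * F.r ρ + 1) * cpow P (pD F ρ) (F.r ρ + 1)) (0, pLf (F.r ρ) + 1) 0 else 0, 0, 0, 0)

/-- The final state of the stack machine. -/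
def tryFin (F : Fam) (ρ o q P : ℕ) : ℕ × ℕ × ℕ × ℕ :=
  (0, if good F ρ o q P then ofd q (F.r ρ * F.r ρ + 1) (dig (pD F ρ)
    (dagVal (F.M ρ) (pD F ρ) (F.r ρ) (F.r ρ) (F.T ρ) (F.c ρ o) (0, pLf (F.r ρ) + 1))) else 0,
    0, 0)

/-- The result of the try. -/
def tryAns (F : Fam) (ρ o q P : ℕ) : ℕ :=
  if good F ρ o q P then outc (dig q (tryFin F ρ o q P).2.1 (F.r ρ * F.r ρ) % (F.M ρ).nQ) else 0

/-- The weighted sum of the results of all tries with parameters below `P`. -/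
def cntAns (F : Fam) (P : ℕ) : ℕ :=
  ∑ r ∈ range P, ∑ o ∈ range P, ∑ q ∈ range P,
    if tryAns F r o q P = 2 then P * P * P + 1 else tryAns F r o q P

/-- The answer found with parameters below `P`: `0` unknown, `1` reject, `2` accept. -/
def ansP (F : Fam) (P : ℕ) : ℕ :=
  if cntAns F P = 0 then 0 else if cntAns F P ≤ P * P * P then 1 else 2

/-- A value of `P` which suffices for the parameter `ρ`. -/
def pBound (F : Fam) (ρ : ℕ) : ℕ := (2 * pK F ρ + 1) ^ pE (F.r ρ) + 1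

section

variable {F : Fam} {ρ o q P : ℕ}

theorem pD_facts (hr : 1 ≤ F.r ρ) :
    (F.M ρ).nG ≤ pD F ρ ∧ pLf (F.r ρ) + 1 ≤ pD F ρ ∧
      pD F ρ ≤ (F.r ρ * F.r ρ + 1) * pD F ρ ∧
      (F.r ρ * F.r ρ + 1) * pD F ρ ≤ F.r ρ * ((F.r ρ * F.r ρ + 1) * pD F ρ) :=
  ⟨by unfold pD; omega, by unfold pD; omega, Nat.le_mul_of_pos_left _ (by omega),
    Nat.le_mul_of_pos_left _ hr⟩

theorem try_ev_lt (hF : F.WF) (s : ℕ) :
    ev (F.M ρ) (F.r ρ * F.r ρ + 1) (F.T ρ) (F.c ρ o) s < pD F ρ := by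
  have := evc_lt ((hF.ok ρ o).mac_iter (hF.wf ρ) (F.r ρ * F.r ρ + 1) (F.T ρ) s)
  unfold pD ev
  omega

theorem try_good (hF : F.WF) (h : good F ρ o q P) : q.Prime ∧ q ^ (F.r ρ * F.r ρ + 1) ≤ P ∧
    (tryDag F ρ o q P).W (dagDep (F.r ρ) (0, pLf (F.r ρ) + 1)) (dagEps (F.r ρ) (0, pLf (F.r ρ) + 1))
      ≤ P ∧
    (tryDag F ρ o q P).Good (dagV q (F.r ρ) (pLf (F.r ρ)))
      (dagVal (F.M ρ) (pD F ρ) (F.r ρ) (F.r ρ) (F.T ρ) (F.c ρ o)) (dagDep (F.r ρ))
      (dagEps (F.r ρ)) := by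
  obtain ⟨hr, ho, hq, hK, hP⟩ := h
  rw [cpow_le_iff] at hP
  obtain ⟨f1, f2, f3, f4⟩ := pD_facts hr
  have hev := fun s (_ : s ≤ pLf (F.r ρ) * F.r ρ) => try_ev_lt (ρ := ρ) (o := o) hF s
  unfold pK at hK
  have eW : ∀ a b, (tryDag F ρ o q P).W a b = (q + 1) ^ (8 * a) *
      ((F.r ρ * F.r ρ + 1) * cpow P (pD F ρ) (F.r ρ + 1) + 1) ^ b := fun _ _ => rfl
  rw [eW]
  unfold tryDag
  generalize F.r ρ = r at *
  have h1 : q ^ (r * r + 1) ≤ P := by
    refine le_trans ?_ hP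
    calc q ^ (r * r + 1) ≤ (q + 1) ^ (r * r + 1) := Nat.pow_le_pow_left (by omega) _
      _ ≤ (q + 1) ^ pE r := Nat.pow_le_pow_right (by omega) (by unfold pE; nlinarith)
  refine ⟨(prime_iff_nDiv (by omega)).2 hq, h1, ?_, ?_⟩
  · refine le_trans ?_ hP
    have hlf : 0 < pLf r := by unfold pLf; positivity
    have e1 : dagDep r (0, pLf r + 1) = 2 * (pLf r + 1) := by simp [dagDep]
    have e2 : dagEps r (0, pLf r + 1) ≤ r + 2 := by
      simp only [dagEps, Nat.add_eq_zero_iff, one_ne_zero, and_false, if_false, if_true]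
      rw [if_neg (by omega)]
      have : (pLf r + 1 - 2) / r < r + 1 := by
        rw [Nat.div_lt_iff_lt_mul hr]
        unfold pLf at *
        omega
      omega
    have e3 : (r * r + 1) * cpow P (pD F ρ) (r + 1) + 1 ≤ (q + 1) ^ (r + 1) := by
      have h2 : (r * r + 1) * cpow P (pD F ρ) (r + 1) ≤ q ^ (r + 1) := by
        calc (r * r + 1) * cpow P (pD F ρ) (r + 1)
            ≤ (r * r + 1) * pD F ρ ^ (r + 1) :=
              Nat.mul_le_mul_left _ (min_le_right _ _)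
          _ = ((r * r + 1) * pD F ρ) * pD F ρ ^ r := by ring
          _ ≤ q * q ^ r := Nat.mul_le_mul (by omega) (Nat.pow_le_pow_left (by omega) _)
          _ = q ^ (r + 1) := by ring
      have h3 : q ^ (r + 1) < (q + 1) ^ (r + 1) := Nat.pow_lt_pow_left (by omega) (by omega)
      omega
    rw [e1]
    calc (q + 1) ^ (8 * (2 * (pLf r + 1))) *
          ((r * r + 1) * cpow P (pD F ρ) (r + 1) + 1) ^ dagEps r (0, pLf r + 1)
        ≤ (q + 1) ^ (8 * (2 * (pLf r + 1))) * ((q + 1) ^ (r + 1)) ^ (r + 2) := by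
          refine Nat.mul_le_mul_left _ ((Nat.pow_le_pow_left e3 _).trans ?_)
          exact Nat.pow_le_pow_right (by positivity) e2
      _ = (q + 1) ^ (8 * (2 * (pLf r + 1)) + (r + 1) * (r + 2)) := by rw [← pow_mul, ← pow_add]
      _ ≤ (q + 1) ^ pE r := Nat.pow_le_pow_right (by omega) (by unfold pE pLf; nlinarith)
  · exact mkDag_good (c := F.c ρ o) (hF.wf ρ) (hF.ok ρ o) f1 hr hr hev
      (by omega) h1 (by omega) (by omega) (by omega)

/-- The run of the stack machine: all numbers stay below `P`. -/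
theorem try_run (hF : F.WF) :
    ∃ n, tryFin F ρ o q P = (step (tryDag F ρ o q P))^[n] (tryInit F ρ o q P) ∧
      (∀ k < n, ((step (tryDag F ρ o q P))^[k] (tryInit F ρ o q P)).1 ≠ 0) ∧
      ∀ k ≤ n, ((step (tryDag F ρ o q P))^[k] (tryInit F ρ o q P)).1 ≤ P ∧
        ((step (tryDag F ρ o q P))^[k] (tryInit F ρ o q P)).2.1 ≤ P ∧
        ((step (tryDag F ρ o q P))^[k] (tryInit F ρ o q P)).2.2.1 ≤ P ∧
        ((step (tryDag F ρ o q P))^[k] (tryInit F ρ o q P)).2.2.2 ≤ P := by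
  by_cases h : good F ρ o q P
  · obtain ⟨hq, h1, h2, hg⟩ := try_good hF h
    have : Fact (tryDag F ρ o q P).q.Prime := ⟨hq⟩
    obtain ⟨n, A, e, hA, hd, hn⟩ := hg.run (u := (0, pLf (F.r ρ) + 1)) ⟨Nat.zero_le _, le_rfl, by simp⟩
    have ei : tryInit F ρ o q P = (enter (tryDag F ρ o q P).q (tryDag F ρ o q P).G
        (0, pLf (F.r ρ) + 1) 0, 0, 0, 0) := by
      rw [tryInit, if_pos h]; rfl
    have ef : tryFin F ρ o q P = (0, A, 0, 0) := by
      rw [tryFin, if_pos h, ← ofd_dig _ A hA]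
      congr 2
      exact (ofd_congr _ _ _ hd).symm
    rw [ei, ef]
    refine ⟨n, e.symm, fun k hk => (hn k hk).1, fun k hk => ?_⟩
    rcases hk.lt_or_eq with hk | rfl
    · obtain ⟨-, g1, g2, g3, g4⟩ := hn k hk
      exact ⟨g1.trans h2, g2.le.trans h1, g3.le.trans h1, g4.le.trans h1⟩
    · rw [e]
      exact ⟨Nat.zero_le _, hA.le.trans h1, Nat.zero_le _, Nat.zero_le _⟩
  · refine ⟨0, by simp [tryFin, tryInit, h], fun k hk => by omega, fun k hk => ?_⟩
    obtain rfl : k = 0 := by omega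
    simp [tryInit, h]

theorem tryAns_eq (hF : F.WF) (h : good F ρ o q P) : tryAns F ρ o q P = outc (F.fin ρ o) := by
  obtain ⟨-, -, -, hg⟩ := try_good hF h
  have hD0 : 0 < pD F ρ := hg.D0
  have hDq : pD F ρ ≤ q := hg.Dq
  rw [tryAns, if_pos h, tryFin, if_pos h]
  dsimp only
  rw [dig_ofd _ _ (fun i _ => (dig_lt hD0 _ _).trans_le hDq) _ (Nat.lt_succ_self _)]
  simp only [dagVal, Nat.add_eq_zero_iff, one_ne_zero, and_false, if_false, if_true,
    Nat.add_sub_cancel]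
  rw [dig_ofd _ _ (fun t ht => try_ev_lt hF _) _ (Nat.lt_succ_self _),
    Nat.add_sub_cancel, ev, evc_mod ((hF.ok ρ o).mac_iter (hF.wf ρ) _ _ _)]
  rfl

variable {fl : ℕ}

/-- Soundness of one try. -/
theorem tryAns_sound (hF : F.WF) (hs : ∀ ρ o, o < F.O ρ → F.fin ρ o ≤ 1 → F.fin ρ o = fl)
    (ρ o q P : ℕ) : tryAns F ρ o q P = 0 ∨ tryAns F ρ o q P = fl + 1 := by
  by_cases h : good F ρ o q P
  · rw [tryAns_eq hF h, outc]
    split_ifs with h1
    · right
      rw [hs ρ o h.2.1 h1]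
    · exact Or.inl rfl
  · exact Or.inl (if_neg h)

/-- Completeness of the search. -/
theorem exists_try (hF : F.WF) (hr1 : 1 ≤ F.r ρ) (ho : o < F.O ρ) (h : F.fin ρ o ≤ 1) :
    ∃ q, ρ < pBound F ρ ∧ o < pBound F ρ ∧ q < pBound F ρ ∧ tryAns F ρ o q (pBound F ρ) ≠ 0 := by
  obtain ⟨f1, f2, f3, f4⟩ := pD_facts hr1
  obtain ⟨q, hq, hq1, hq2⟩ := Nat.exists_prime_lt_and_le_two_mul (pK F ρ) (by unfold pK; omega)
  have hP : (q + 1) ^ pE (F.r ρ) < pBound F ρ :=
    Nat.lt_succ_of_le (Nat.pow_le_pow_left (by omega) _)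
  have hq3 : q + 1 ≤ (q + 1) ^ pE (F.r ρ) := Nat.le_self_pow (by unfold pE; positivity) _
  have hN : F.r ρ * F.r ρ + 1 ≤ (F.r ρ * F.r ρ + 1) * pD F ρ :=
    Nat.le_mul_of_pos_right _ (by omega)
  have hrr : F.r ρ ≤ F.r ρ * F.r ρ := Nat.le_mul_self _
  have hg : good F ρ o q (pBound F ρ) :=
    ⟨hr1, ho, (prime_iff_nDiv hq.two_le).1 hq, hq1, (cpow_le_iff _ _ _).2 hP.le⟩
  have h1 := hF.le_r ρ
  have h2 := hF.O_le ρ
  unfold pK at hq1
  refine ⟨q, by omega, by omega, by omega, ?_⟩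
  rw [tryAns_eq hF hg, outc, if_pos h]
  omega

theorem ansP_sound (hF : F.WF) (hf : fl ≤ 1)
    (hs : ∀ ρ o, o < F.O ρ → F.fin ρ o ≤ 1 → F.fin ρ o = fl) (P : ℕ) :
    ansP F P = 0 ∨ ansP F P = fl + 1 := by
  rw [ansP]
  split_ifs with h1 h2
  · exact Or.inl rfl
  · right
    by_contra hc
    have hf1 : fl = 1 := by omega
    obtain ⟨r, hr, h3⟩ := exists_ne_zero_of_sum_ne_zero h1
    obtain ⟨o, ho, h4⟩ := exists_ne_zero_of_sum_ne_zero h3
    obtain ⟨q, hq, h5⟩ := exists_ne_zero_of_sum_ne_zero h4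
    have h6 := tryAns_sound hF hs r o q P
    have h7 : tryAns F r o q P = 2 := by
      rcases h6 with h6 | h6
      · rw [h6] at h5
        simp at h5
      · omega
    have h8 : P * P * P + 1 ≤ cntAns F P := by
      refine le_trans ?_ (single_le_sum (f := fun r => ∑ o ∈ range P, ∑ q ∈ range P, _)
        (fun _ _ => Nat.zero_le _) hr)
      refine le_trans ?_ (single_le_sum (f := fun o => ∑ q ∈ range P, _)
        (fun _ _ => Nat.zero_le _) ho)
      refine le_trans ?_ (single_le_sum (fun _ _ => Nat.zero_le _) hq)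
      rw [if_pos h7]
    omega
  · right
    by_contra hc
    have hf1 : fl = 0 := by omega
    apply h2
    calc cntAns F P
        ≤ ∑ r ∈ range P, ∑ o ∈ range P, ∑ q ∈ range P, 1 := by
          refine sum_le_sum fun r _ => sum_le_sum fun o _ => sum_le_sum fun q _ => ?_
          have h6 := tryAns_sound hF hs r o q P
          split_ifs <;> omega
      _ = P * P * P := by simp [mul_assoc]

theorem ansP_complete (hF : F.WF) (hr1 : 1 ≤ F.r ρ) (ho : o < F.O ρ) (h' : F.fin ρ o ≤ 1) :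
    ansP F (pBound F ρ) ≠ 0 := by
  obtain ⟨q, h1, h2, h3, h⟩ := exists_try hF hr1 ho h'
  have : cntAns F
      (pBound F ρ) ≠ 0 := by
    intro h0
    rw [cntAns, sum_eq_zero_iff] at h0
    have h4 := h0 ρ (mem_range.2 h1)
    rw [sum_eq_zero_iff] at h4
    have h5 := h4 o (mem_range.2 h2)
    rw [sum_eq_zero_iff] at h5
    have h6 := h5 q (mem_range.2 h3)
    by_cases h7 : tryAns F ρ o q
        (pBound F ρ) = 2
    · rw [if_pos h7] at h6
      omega
    · rw [if_neg h7] at h6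
      exact h h6
  rw [ansP, if_neg this]
  split_ifs <;> omega

end

section

variable {A : Type} {B : Bud A} {α : Type} [Enc A α]

/-- All data of the families are computable from the context. -/
structure FComp (B : Bud A) (F : α → Fam) : Prop where
  wf : ∀ v, (F v).WF
  M : Comp B fun p : α × ℕ => (F p.1).M p.2
  r : SP B fun p : α × ℕ => (F p.1).r p.2
  T : SP B fun p : α × ℕ => (F p.1).T p.2
  O : SP B fun p : α × ℕ => (F p.1).O p.2
  e0 : SP B fun p : α × ℕ × ℕ => evc ((F p.1).M p.2.1) ((F p.1).c p.2.1 p.2.2)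
  tp : SP B fun p : α × ℕ × ℕ × ℕ => ((F p.1).c p.2.1 p.2.2.1).2.2 p.2.2.2

theorem FComp.comp {β : Type} [Enc A β] {F : α → Fam} (h : FComp B F) {c : β → α} (hc : SP B c) :
    FComp B fun v => F (c v) where
  wf := fun _ => h.wf _
  M := h.M.comp (c := fun p : β × ℕ => (c p.1, p.2)) (by fun_prop)
  r := h.r.comp (g := fun p : β × ℕ => (c p.1, p.2)) (by fun_prop)
  T := h.T.comp (g := fun p : β × ℕ => (c p.1, p.2)) (by fun_prop)
  O := h.O.comp (g := fun p : β × ℕ => (c p.1, p.2)) (by fun_prop)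
  e0 := h.e0.comp (g := fun p : β × ℕ × ℕ => (c p.1, p.2)) (by fun_prop)
  tp := h.tp.comp (g := fun p : β × ℕ × ℕ × ℕ => (c p.1, p.2)) (by fun_prop)

variable {F : α → Fam} {ρ o q P : α → ℕ}

theorem FComp.r' (hF : FComp B F) (hρ : SP B ρ) : SP B fun v => (F v).r (ρ v) :=
  hF.r.comp (g := fun v => (v, ρ v)) (by fun_prop)

theorem FComp.M' (hF : FComp B F) (hρ : SP B ρ) : Comp B fun v => (F v).M (ρ v) :=
  hF.M.comp (c := fun v => (v, ρ v)) (by fun_prop)

theorem sp_pD (hF : FComp B F) (hρ : SP B ρ) : SP B fun v => pD (F v) (ρ v) := by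
  have h1 := hF.r' hρ
  have h2 := (hF.M' hρ).nQ
  have h3 := (hF.M' hρ).nG
  have h4 := (hF.M' hρ).nP
  unfold pD
  fun_prop

theorem sp_pK (hF : FComp B F) (hρ : SP B ρ) : SP B fun v => pK (F v) (ρ v) := by
  have h1 := hF.r' hρ
  have h2 := sp_pD hF hρ
  unfold pK
  fun_prop

theorem sp_good (hF : FComp B F) (hρ : SP B ρ) (ho : SP B o) (hq : SP B q)
    (hP : SP B P) : SP B fun v => decide (good (F v) (ρ v) (o v) (q v) (P v)) := by
  have h1 := hF.r' hρ
  have h2 := sp_pK hF hρ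
  have h3 : SP B fun v => (F v).O (ρ v) := hF.O.comp (g := fun v => (v, ρ v)) (by fun_prop)
  have e : (fun v => decide (good (F v) (ρ v) (o v) (q v) (P v))) = fun v =>
      decide (1 ≤ (F v).r (ρ v)) && (decide (o v < (F v).O (ρ v)) && (decide (nDiv (q v) = 0) &&
        (decide (pK (F v) (ρ v) < q v) &&
          decide (cpow (P v + 1) (q v + 1) (pE ((F v).r (ρ v))) ≤ P v)))) := by
    funext v
    simp only [← Bool.decide_and]
    exact decide_eq_decide.2 Iff.rfl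
  rw [e]
  refine SP.and (SP.decide_le ?_ ?_) (SP.and (SP.decide_lt ?_ ?_) (SP.and (SP.decide_eq ?_ ?_)
    (SP.and (SP.decide_lt ?_ ?_) (SP.decide_le ?_ ?_)))) <;> fun_prop

theorem sp_tryInit (hF : FComp B F) (hρ : SP B ρ) (ho : SP B o) (hq : SP B q)
    (hP : SP B P) : SP B fun v => tryInit (F v) (ρ v) (o v) (q v) (P v) := by
  have h1 := hF.r' hρ
  have h2 := sp_pD hF hρ
  exact SP.pair (SP.ite (sp_good hF hρ ho hq hP) (by fun_prop) (by fun_prop)) (by fun_prop)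

theorem sp_tryDag (hF : FComp B F) (hρ : SP B ρ) (ho : SP B o) (hq : SP B q) (hP : SP B P) :
    SPDag B fun v => tryDag (F v) (ρ v) (o v) (q v) (P v) :=
  sp_mkDag (hF.M' hρ) hP (sp_pD hF hρ) hq (hF.r' hρ) (hF.r' hρ)
    (hF.T.comp (g := fun v => (v, ρ v)) (by fun_prop))
    (hF.e0.comp (g := fun v => (v, ρ v, o v)) (by fun_prop))
    (hF.tp.comp (g := fun p : α × ℕ => (p.1, ρ p.1, o p.1, p.2)) (by fun_prop))

theorem sp_tryFin (hF : FComp B F) (hρ : SP B ρ) (ho : SP B o) (hq : SP B q) (hP : SP B P) :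
    SP B fun v => tryFin (F v) (ρ v) (o v) (q v) (P v) := by
  have hd := sp_tryDag hF hρ ho hq hP
  have hb := PBd.of_SP hP
  refine sp_whileC (init := fun v => tryInit (F v) (ρ v) (o v) (q v) (P v))
    (stp := fun v => step (tryDag (F v) (ρ v) (o v) (q v) (P v)))
    (cont := fun _ σ => !decide (σ.1 = 0))
    (bd := fun v => (P v + (P v + (P v + P v + 1) ^ 2 + 1) ^ 2 + 1) ^ 2)
    (sp_tryInit hF hρ ho hq hP) (sp_step (hd.comp (c := Prod.fst) (by fun_prop)) (by fun_prop))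
    (by fun_prop)
    (((hb.add ((((hb.add ((((hb.add hb).add (PBd.const 1)).pow 2))).add (PBd.const 1)).pow
      2))).add (PBd.const 1)).pow 2) fun x v _ => ?_
  obtain ⟨n, h1, h2, h3⟩ := try_run (ρ := ρ v) (o := o v) (q := q v) (P := P v) (hF.wf v)
  refine ⟨n, h1, ?_, fun k hk => ?_, fun k hk => ?_⟩
  · rw [← h1]; simp [tryFin]
  · simpa using h2 k hk
  · obtain ⟨a1, a2, a3, a4⟩ := h3 k hk
    exact enc_four_le a1 a2 a3 a4

theorem sp_tryAns (hF : FComp B F) (hρ : SP B ρ) (ho : SP B o) (hq : SP B q) (hP : SP B P) :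
    SP B fun v => tryAns (F v) (ρ v) (o v) (q v) (P v) := by
  have hf := (sp_tryFin hF hρ ho hq hP).snd.fst
  have h1 := hF.r' hρ
  exact SP.ite (sp_good hF hρ ho hq hP)
    (sp_outc (SP.mod (sp_dig hq hf (by fun_prop)) (hF.M' hρ).nQ)) (by fun_prop)

theorem sp_cntAns (hF : FComp B F) (hP : SP B P) : SP B fun v => cntAns (F v) (P v) := by
  refine SP.sum_range hP (SP.sum_range (by fun_prop) (SP.sum_range (by fun_prop) ?_))
  have h : SP B fun p : ((α × ℕ) × ℕ) × ℕ => tryAns (F p.1.1.1) p.1.1.2 p.1.2 p.2 (P p.1.1.1) :=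
    sp_tryAns (hF.comp (c := fun p : ((α × ℕ) × ℕ) × ℕ => p.1.1.1) (by fun_prop)) (by fun_prop)
      (by fun_prop) (by fun_prop) (by fun_prop)
  exact SP.ite (SP.decide_eq h (by fun_prop)) (by fun_prop) h

theorem sp_ansP (hF : FComp B F) (hP : SP B P) : SP B fun v => ansP (F v) (P v) := by
  have h := sp_cntAns hF hP
  exact SP.ite (SP.decide_eq h (by fun_prop)) (by fun_prop)
    (SP.ite (SP.decide_le h (by fun_prop)) (by fun_prop) (by fun_prop))

end

/-- **The general simulation theorem.** -/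
theorem core {A : Type} {L : Language A} {s : ℕ → ℝ} (F : List A → Fam) (fl ρ : List A → ℕ)
    (hF : ∀ B : Bud A, FComp B fun x : Inp A => F x) (hfl : ∀ x, fl x ≤ 1)
    (hL : ∀ x, fl x = 1 ↔ x ∈ L)
    (hs : ∀ x ρ o, o < (F x).O ρ → (F x).fin ρ o ≤ 1 → (F x).fin ρ o = fl x)
    (hc : ∀ x, 1 ≤ (F x).r (ρ x) ∧ ∃ o < (F x).O (ρ x), (F x).fin (ρ x) o ≤ 1)
    (hB : ∃ (C : ℝ) (N : ℕ), ∀ x : List A, N ≤ x.length →
      ((Nat.log 2 (pBound (F x) (ρ x) + 2) : ℕ) : ℝ) ≤ C * s x.length) : L ∈ SPACE A s := by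
  classical
  let bd : List A → ℕ := fun x => pBound (F x) (ρ x)
  let ans : List A → ℕ → ℕ := fun x P => ansP (F x) P
  have hW : ∀ x, (F x).WF := (hF ⟨bd⟩).wf
  have hbd : ∀ x, ans x (bd x) ≠ 0 := fun x => by
    obtain ⟨h1, o, ho, h2⟩ := hc x
    exact ansP_complete (hW x) h1 ho h2
  have hex : ∀ x, ∃ P, ans x P ≠ 0 := fun x => ⟨_, hbd x⟩
  have hP : SP ⟨bd⟩ fun x : Inp A => Nat.find (hex x) := by
    refine sp_whileC (init := fun _ => 0) (stp := fun _ n => n + 1)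
      (cont := fun (x : Inp A) P => decide (ans x P = 0)) (bd := fun x => bd x)
      (by fun_prop) (by fun_prop)
      (SP.decide_eq (sp_ansP ((hF ⟨bd⟩).comp (c := fun p : Inp A × ℕ => p.1) (by fun_prop))
        (by fun_prop)) (by fun_prop))
      (PBd.budget SP.id) fun _ x _ => ⟨Nat.find (hex x), ?_, ?_, fun k hk => ?_, fun k hk => ?_⟩
    · rw [iterate_succ_nat]
    · rw [iterate_succ_nat]; simpa using Nat.find_spec (hex x)
    · rw [iterate_succ_nat]; simpa using Nat.find_min (hex x) hk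
    · rw [iterate_succ_nat]
      exact hk.trans (Nat.find_min' (hex x) (hbd x))
  refine SP.mem_SPACE (B := ⟨bd⟩) (f := fun x : Inp A => decide (ans x (Nat.find (hex x)) = 2))
    (SP.decide_eq (sp_ansP (hF ⟨bd⟩) hP) (by fun_prop)) (fun x => ?_) hB
  rw [decide_eq_true_iff]
  refine Iff.trans ?_ (hL x)
  rcases ansP_sound (hW x) (hfl x) (hs x) (Nat.find (hex x)) with h | h
  · exact absurd h (Nat.find_spec (hex x))
  · show ansP _ _ = 2 ↔ _
    rw [h]
    omega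

end Vale.Agent.N312.G
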